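import Vale.Agent.P040.Spec
import Mathlib.Algebra.Order.BigOperators.Ring.Finset
import Mathlib.Algebra.Order.Floor.Ring
import Mathlib.Tactic.Linarith
import Mathlib.Tactic.FieldSimp
import Mathlib.Tactic.Ring
import Mathlib.Tactic.Positivity

/-!
Angles give ranks, and the assembly of the asymptotic bound from the pair bound and the minorant.
-/

open Set Finset

namespace Vale.Agent.P040

/-- The rank of a value among the values of `f`. -/
noncomputable def rankIn {n : ℕ} (f : Fin n → ℝ) (i : Fin n) : Fin n :=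
  ⟨#{j | f j < f i}, lt_of_lt_of_eq
    (Finset.card_lt_card (Finset.filter_ssubset.2 ⟨i, Finset.mem_univ i, lt_irrefl _⟩))
    (Finset.card_fin n)⟩

lemma rankIn_lt {n : ℕ} (f : Fin n → ℝ) {i j : Fin n} (h : f i < f j) :
    (rankIn f i : ℕ) < rankIn f j := by
  simp only [rankIn]
  refine Finset.card_lt_card ((Finset.ssubset_iff_of_subset ?_).2 ⟨i, ?_, ?_⟩)
  · intro k hk
    simp only [Finset.mem_filter, Finset.mem_univ, true_and] at hk ⊢
    exact hk.trans h
  · simp [h]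
  · simp

lemma rankIn_le_iff {n : ℕ} (f : Fin n → ℝ) (hf : Function.Injective f) (i j : Fin n) :
    f i ≤ f j ↔ (rankIn f i : ℕ) ≤ rankIn f j := by
  constructor
  · intro h
    rcases h.eq_or_lt with h | h
    · rw [hf h]
    · exact (rankIn_lt f h).le
  · intro h
    by_contra hc
    have := rankIn_lt f (not_le.1 hc)
    omega

lemma rankIn_bijective {n : ℕ} (f : Fin n → ℝ) (hf : Function.Injective f) :
    Function.Bijective (rankIn f) := by
  refine Finite.injective_iff_bijective.1 fun i j h => hf (le_antisymm ?_ ?_)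
  · exact (rankIn_le_iff f hf i j).2 (by rw [h])
  · exact (rankIn_le_iff f hf j i).2 (by rw [h])

lemma floor_sub_eq_of_lt_one {a b : ℝ} (ha : a ∈ Set.Ico (0:ℝ) 1) (hb : b ∈ Set.Ico (0:ℝ) 1) :
    ⌊b - a⌋ = if a ≤ b then 0 else -1 := by
  obtain ⟨ha0, ha1⟩ := ha
  obtain ⟨hb0, hb1⟩ := hb
  split_ifs with h
  · rw [Int.floor_eq_iff]
    push_cast
    constructor <;> linarith
  · rw [Int.floor_eq_iff]
    push_cast
    constructor <;> linarith [not_le.1 h]

/-- Replacing angles by ranks keeps the floor of each difference. -/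
lemma floor_rank {n : ℕ} (f : Fin n → ℝ) (hf : Function.Injective f)
    (h01 : ∀ i, f i ∈ Set.Ico (0:ℝ) 1) (i j : Fin n) :
    ⌊((rankIn f j : ℕ) : ℝ) / n - ((rankIn f i : ℕ) : ℝ) / n⌋ = ⌊f j - f i⌋ := by
  have hn : (0:ℝ) < n := by exact_mod_cast i.pos
  have hmem : ∀ k, ((rankIn f k : ℕ) : ℝ) / n ∈ Set.Ico (0:ℝ) 1 := by
    intro k
    refine ⟨by positivity, (div_lt_one hn).2 ?_⟩
    exact_mod_cast (rankIn f k).isLt
  rw [floor_sub_eq_of_lt_one (h01 i) (h01 j), floor_sub_eq_of_lt_one (hmem i) (hmem j)]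
  refine if_congr ?_ rfl rfl
  rw [div_le_div_iff_of_pos_right hn, Nat.cast_le]
  exact (rankIn_le_iff f hf i j).symm

theorem pairBound_of_pairAngle (h : PairAngleSpec) : PairBoundSpec := by
  intro m n D θ hN hR
  have hθ01 := hR.1
  have hθinj := hR.2.1
  refine ⟨fun a => rankIn (θ a), fun a => rankIn_bijective _ (hθinj a), fun a a' haa => ?_⟩
  obtain ⟨X, hX, hle⟩ := h D θ hN hR a a' haa
  have hw : ∃ w : Fin n → ℤ, ∀ i j,
      X j - X i = (θ a' i - θ a' j) + ((w j : ℝ) - w i) := by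
    rcases isEmpty_or_nonempty (Fin n) with he | ⟨⟨i₀⟩⟩
    · exact ⟨fun _ => 0, fun i => isEmptyElim i⟩
    · choose z hz using hX i₀
      refine ⟨z, fun i j => ?_⟩
      linarith [hz i, hz j]
  obtain ⟨w, hw⟩ := hw
  refine ⟨w, le_of_eq_of_le ?_ hle⟩
  unfold windCost
  congr 1
  refine Finset.sum_congr rfl fun i _ => Finset.sum_congr rfl fun j _ => ?_
  have h1 : ⌊((w j : ℝ) - ((rankIn (θ a') j : ℕ) : ℝ) / n) -
      ((w i : ℝ) - ((rankIn (θ a') i : ℕ) : ℝ) / n)⌋ = ⌊X j - X i⌋ := by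
    have e1 : ((w j : ℝ) - ((rankIn (θ a') j : ℕ) : ℝ) / n) -
        ((w i : ℝ) - ((rankIn (θ a') i : ℕ) : ℝ) / n) =
        (((rankIn (θ a') i : ℕ) : ℝ) / n - ((rankIn (θ a') j : ℕ) : ℝ) / n) +
          ((w j - w i : ℤ) : ℝ) := by push_cast; ring
    have e2 : X j - X i = (θ a' i - θ a' j) + ((w j - w i : ℤ) : ℝ) := by
      rw [hw i j]; push_cast; ring
    rw [e1, e2, Int.floor_add_intCast, Int.floor_add_intCast,
      floor_rank (θ a') (hθinj a') (hθ01 a') j i]
  rw [h1, floor_rank (θ a) (hθinj a) (hθ01 a) i j]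

namespace RDrawing

variable {m n : ℕ} (D : RDrawing m n)

lemma pairPts_subset {a a' : Fin m} (h : a ≠ a') : D.pairPts a a' ⊆ multPts D.arc := by
  rintro p ⟨i, j, -, ⟨s, hs, hsp⟩, t, ht, htp⟩ hsub
  have := @hsub ((a, i), s) ⟨hs, hsp⟩ ((a', j), t) ⟨ht, htp⟩
  exact h (congrArg (fun q => q.1.1) this)

lemma pairPts_disjoint {a a' b b' : Fin m} (ha : a < a') (hb : b < b')
    (hne : (a, a') ≠ (b, b')) : Disjoint (D.pairPts a a') (D.pairPts b b') := by
  rw [Set.disjoint_left]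
  rintro p ⟨i, j, -, ⟨s, hs, hsp⟩, t, ht, htp⟩ ⟨i', j', -, ⟨s', hs', hsp'⟩, t', ht', htp'⟩
  set F : (Fin m × Fin n) × ℝ → Fin m := fun q => q.1.1
  have h1 : ((a, i), s) ∈ incid D.arc p := ⟨hs, hsp⟩
  have h2 : ((a', j), t) ∈ incid D.arc p := ⟨ht, htp⟩
  have h3 : ((b, i'), s') ∈ incid D.arc p := ⟨hs', hsp'⟩
  have h4 : ((b', j'), t') ∈ incid D.arc p := ⟨ht', htp'⟩
  have key : ∀ q ∈ incid D.arc p, F q = a ∨ F q = a' := by
    intro q hq
    rcases D.two p _ h1 _ h2 _ hq with h | h | h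
    · exact absurd (congrArg F h) ha.ne
    · exact Or.inl (congrArg F h).symm
    · exact Or.inr (congrArg F h).symm
  rcases key _ h3 with e | e <;> rcases key _ h4 with e' | e' <;>
    simp only [F] at e e'
  · exact hb.ne (e.trans e'.symm)
  · exact hne (by rw [e, e'])
  · exact absurd (e ▸ e' ▸ hb) ha.asymm
  · exact hb.ne (e.trans e'.symm)

/-- The ordered pairs of the first class. -/
def ltPairs (m : ℕ) : Finset (Fin m × Fin m) := Finset.univ.filter fun q => q.1 < q.2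

lemma sum_pairPts_le :
    ∑ q ∈ ltPairs m, (D.pairPts q.1 q.2).ncard ≤ D.crossings := by
  classical
  have hsub : ∀ q ∈ ltPairs m, D.pairPts q.1 q.2 ⊆ multPts D.arc := fun q hq =>
    D.pairPts_subset (Finset.mem_filter.1 hq).2.ne
  have hcard : ∀ q ∈ ltPairs m, (D.pairPts q.1 q.2).ncard =
      (D.fin.toFinset.filter (· ∈ D.pairPts q.1 q.2)).card := by
    intro q hq
    rw [← Set.ncard_coe_finset]
    congr 1
    ext p
    simpa using fun hp => hsub q hq hp
  rw [Finset.sum_congr rfl hcard, ← Finset.card_biUnion]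
  · rw [RDrawing.crossings, Set.ncard_eq_toFinset_card _ D.fin]
    exact Finset.card_le_card (Finset.biUnion_subset.2 fun q _ => Finset.filter_subset _ _)
  · intro q hq q' hq' hne
    rw [Function.onFun, Finset.disjoint_left]
    intro p hp hp'
    exact Set.disjoint_left.1 (D.pairPts_disjoint (Finset.mem_filter.1 hq).2
      (Finset.mem_filter.1 hq').2 hne) (Finset.mem_filter.1 hp).2 (Finset.mem_filter.1 hp').2

end RDrawing

open RDrawing (ltPairs)

lemma two_mul_sum_ltPairs {m : ℕ} (f : Fin m → Fin m → ℝ) (hf : ∀ a b, f a b = f b a) :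
    2 * ∑ q ∈ ltPairs m, f q.1 q.2 = (∑ a, ∑ b, f a b) - ∑ a, f a a := by
  have h1 : ∑ q ∈ ltPairs m, f q.1 q.2 = ∑ a, ∑ b, if a < b then f a b else 0 := by
    rw [ltPairs, Finset.sum_filter, ← Finset.univ_product_univ, Finset.sum_product]
  have h2 : ∀ a b, f a b = (if a < b then f a b else 0) + (if b < a then f b a else 0) +
      (if a = b then f a a else 0) := by
    intro a b
    rcases lt_trichotomy a b with h | h | h
    · simp [h, h.ne, h.asymm]
    · subst h; simp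
    · simp [h, h.ne', h.asymm, hf a b]
  rw [h1]
  conv_rhs => enter [1, 2, a, 2, b]; rw [h2 a b]
  simp only [Finset.sum_add_distrib, Finset.sum_ite_eq, Finset.mem_univ, if_true]
  rw [Finset.sum_comm (f := fun a b => if b < a then f b a else 0)]
  ring

lemma ltPairs_card (m : ℕ) : ((ltPairs m).card : ℝ) = ((m : ℝ) ^ 2 - m) / 2 := by
  have h := two_mul_sum_ltPairs (m := m) (fun _ _ => (1:ℝ)) (fun _ _ => rfl)
  simp only [Finset.sum_const, Finset.card_univ, Fintype.card_fin, nsmul_eq_mul, mul_one] at h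
  rw [pow_two]
  linarith

lemma sum_ltPairs_mul_ge {m n : ℕ} (G : Fin m → Fin n → Fin n → ℝ) (hG : ∀ a i j, |G a i j| ≤ 1) :
    -((m : ℝ) * (n : ℝ) ^ 2 / 2) ≤ ∑ q ∈ ltPairs m, ∑ i, ∑ j, G q.1 i j * G q.2 i j := by
  rw [Finset.sum_comm]
  have hin : ∀ i j, -((m : ℝ) / 2) ≤ ∑ q ∈ ltPairs m, G q.1 i j * G q.2 i j := by
    intro i j
    have h := two_mul_sum_ltPairs (fun a b => G a i j * G b i j) (fun a b => mul_comm _ _)
    rw [← Finset.sum_mul_sum] at h
    have hle : ∑ a, G a i j * G a i j ≤ (m : ℝ) := by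
      calc ∑ a, G a i j * G a i j ≤ ∑ _a : Fin m, (1:ℝ) :=
            Finset.sum_le_sum fun a _ => by
              have := abs_le.1 (hG a i j)
              nlinarith
        _ = m := by simp
    nlinarith [mul_self_nonneg (∑ a, G a i j)]
  calc -((m : ℝ) * (n : ℝ) ^ 2 / 2) = ∑ _i : Fin n, ∑ _j : Fin n, -((m : ℝ) / 2) := by
        simp; ring
    _ ≤ ∑ i, ∑ q ∈ ltPairs m, ∑ j, G q.1 i j * G q.2 i j := by
        refine Finset.sum_le_sum fun i _ => ?_
        rw [Finset.sum_comm]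
        exact Finset.sum_le_sum fun j _ => hin i j

theorem bound_of_specs {c : ℝ} (hNorm : NormaliseSpec) (hPair : PairBoundSpec)
    (hMin : MinorantSpec c) : BoundSpec c := by
  obtain ⟨F, E, hF, hwind⟩ := hMin
  intro η hη
  obtain ⟨N, hN⟩ := exists_nat_ge ((|c| + 8 + 8 * |E|) / η)
  refine ⟨N + 1, fun m n hm hn D => ?_⟩
  obtain ⟨D', θ, hcr, hNA, hR⟩ := hNorm D
  obtain ⟨rk, hbij, hbound⟩ := hPair D' θ hNA hR
  set G : Fin m → Fin n → Fin n → ℝ := fun a i j =>
    F (Int.fract (((rk a j : ℕ) : ℝ) / n - ((rk a i : ℕ) : ℝ) / n))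
  have hterm : ∀ q ∈ ltPairs m, c / 8 * (n : ℝ) ^ 2 - E * n +
      ∑ i, ∑ j, G q.1 i j * G q.2 i j ≤ ((D'.pairPts q.1 q.2).ncard : ℝ) := by
    intro q hq
    obtain ⟨w, hw⟩ := hbound q.1 q.2 (Finset.mem_filter.1 hq).2.ne
    have := hwind n (rk q.1) (rk q.2) (hbij _) (hbij _) w
    simp only [G]
    linarith
  have hsum := Finset.sum_le_sum hterm
  rw [Finset.sum_add_distrib, Finset.sum_const, nsmul_eq_mul, ltPairs_card] at hsum
  have hFG := sum_ltPairs_mul_ge G (fun a i j => hF _)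
  have hle : ∑ q ∈ ltPairs m, ((D'.pairPts q.1 q.2).ncard : ℝ) ≤ (D.crossings : ℝ) := by
    exact_mod_cast D'.sum_pairPts_le.trans hcr
  have hm1 : (N : ℝ) + 1 ≤ m := by exact_mod_cast hm
  have hn1 : (N : ℝ) + 1 ≤ n := by exact_mod_cast hn
  rw [div_le_iff₀ hη] at hN
  have hm0 : (0:ℝ) ≤ m := Nat.cast_nonneg m
  have hn0 : (0:ℝ) ≤ n := Nat.cast_nonneg n
  have k0 : (N : ℝ) * η ≤ m * η ∧ (N : ℝ) * η ≤ n * η :=
    ⟨mul_le_mul_of_nonneg_right (by linarith) hη.le, mul_le_mul_of_nonneg_right (by linarith) hη.le⟩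
  have hc' : (m : ℝ) * n ^ 2 * c ≤ m * n ^ 2 * |c| :=
    mul_le_mul_of_nonneg_left (le_abs_self c) (by positivity)
  have hE' : ((m : ℝ) ^ 2 - m) * n * E ≤ (m : ℝ) ^ 2 * n * |E| := by
    have hm2 : (0:ℝ) ≤ (m : ℝ) ^ 2 - m := by nlinarith
    calc ((m : ℝ) ^ 2 - m) * n * E ≤ ((m : ℝ) ^ 2 - m) * n * |E| :=
          mul_le_mul_of_nonneg_left (le_abs_self E) (by positivity)
      _ ≤ (m : ℝ) ^ 2 * n * |E| := by
          refine mul_le_mul_of_nonneg_right (mul_le_mul_of_nonneg_right ?_ hn0) (abs_nonneg E)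
          linarith
  -- `(|c| + 8) n + 8 |E| m ≤ η m n`
  have k1 : (|c| + 8) * n + 8 * |E| * m ≤ η * m * n := by
    have a1 : (|c| + 8 + 8 * |E|) ≤ m * η := hN.trans k0.1
    have a2 : (|c| + 8 + 8 * |E|) ≤ n * η := hN.trans k0.2
    rcases le_total (m : ℝ) n with h | h
    · nlinarith [mul_le_mul_of_nonneg_right a1 hn0,
        mul_le_mul_of_nonneg_left h (mul_nonneg (by norm_num : (0:ℝ) ≤ 8) (abs_nonneg E))]
    · nlinarith [mul_le_mul_of_nonneg_left a2 hm0,
        mul_le_mul_of_nonneg_left h (by positivity : (0:ℝ) ≤ |c| + 8)]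
  nlinarith [mul_le_mul_of_nonneg_left k1 (mul_nonneg hm0 hn0)]

theorem bound_of_pairAngle {c : ℝ} (hNorm : NormaliseSpec) (hAngle : PairAngleSpec)
    (hMin : MinorantSpec c) : BoundSpec c :=
  bound_of_specs hNorm (pairBound_of_pairAngle hAngle) hMin

end Vale.Agent.P040
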