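import Mathlib.Analysis.SpecialFunctions.Complex.Circle
import Mathlib.Data.Set.Card
import Mathlib.Algebra.BigOperators.Fin

/-!
Relaxed drawings of `K_{m,n}` in the plane. An edge is any path whose interior avoids the vertices;
finitely many points are met more than once, each at most twice. Transversality and simple arcs are
not required, so a lower bound on the number of multiple points holds for all drawings.
-/

open Set

namespace Vale.Agent.P040

/-- The times at which some edge passes through `p` in its interior. -/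
def incid {m n : ℕ} (arc : Fin m → Fin n → ℝ → ℂ) (p : ℂ) : Set ((Fin m × Fin n) × ℝ) :=
  {q | q.2 ∈ Ioo (0:ℝ) 1 ∧ arc q.1.1 q.1.2 q.2 = p}

/-- The multiple points. -/
def multPts {m n : ℕ} (arc : Fin m → Fin n → ℝ → ℂ) : Set ℂ :=
  {p | ¬ (incid arc p).Subsingleton}

/-- A relaxed drawing of `K_{m,n}`. -/
structure RDrawing (m n : ℕ) where
  /-- The first class. -/
  A : Fin m → ℂ
  /-- The second class. -/
  B : Fin n → ℂ
  /-- The edges, parametrised by `[0,1]`. -/
  arc : Fin m → Fin n → ℝ → ℂ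
  inj : Function.Injective (Sum.elim A B)
  cont : ∀ i j, ContinuousOn (arc i j) (Icc 0 1)
  src : ∀ i j, arc i j 0 = A i
  tgt : ∀ i j, arc i j 1 = B j
  avoid : ∀ i j, ∀ t ∈ Ioo (0:ℝ) 1, arc i j t ∉ range A ∧ arc i j t ∉ range B
  two : ∀ p, ∀ q₁ ∈ incid arc p, ∀ q₂ ∈ incid arc p, ∀ q₃ ∈ incid arc p,
    q₁ = q₂ ∨ q₁ = q₃ ∨ q₂ = q₃
  fin : (multPts arc).Finite

namespace RDrawing

variable {m n : ℕ} (D : RDrawing m n)

/-- The number of multiple points. -/
noncomputable def crossings : ℕ := (multPts D.arc).ncard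

/-- The points common to an edge at `A a` and an edge at `A a'` with different second ends. -/
def pairPts (a a' : Fin m) : Set ℂ :=
  {p | ∃ i j : Fin n, i ≠ j ∧ (∃ s ∈ Ioo (0:ℝ) 1, D.arc a i s = p) ∧
    ∃ t ∈ Ioo (0:ℝ) 1, D.arc a' j t = p}

/-- Two edges with a common end in the first class have no common interior point. -/
def NoAdjacent : Prop :=
  ∀ a, ∀ i j : Fin n, i ≠ j → ∀ s ∈ Ioo (0:ℝ) 1, ∀ t ∈ Ioo (0:ℝ) 1, D.arc a i s ≠ D.arc a j t

/-- Near each vertex of the first class the edges are radii with distinct directions. -/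
def Radial (θ : Fin m → Fin n → ℝ) : Prop :=
  (∀ a i, θ a i ∈ Ico (0:ℝ) 1) ∧ (∀ a, Function.Injective (θ a)) ∧
  ∀ a, ∃ ρ > (0:ℝ), ∃ δ ∈ Ioo (0:ℝ) 1, ∀ i, ∀ t ∈ Icc (0:ℝ) δ,
    D.arc a i t = D.A a + ↑(ρ * t) * Complex.exp (↑(2 * Real.pi * θ a i) * Complex.I)

end RDrawing

/-- The winding bound of two rotations with winding numbers `w`: the number of lifts that change
order. -/
noncomputable def windCost {n : ℕ} (x y : Fin n → ℕ) (w : Fin n → ℤ) : ℝ :=
  (∑ i, ∑ j, |((⌊((w j : ℝ) - (y j : ℝ) / n) - ((w i : ℝ) - (y i : ℝ) / n)⌋ -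
    ⌊(x j : ℝ) / n - (x i : ℝ) / n⌋ : ℤ) : ℝ)|) / 2

end Vale.Agent.P040
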