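import Vale.Agent.P040.Normalise.Surgery
import Vale.Agent.P040.Normalise.Radial

/-!
# Every drawing can be made normal without gaining a multiple point
-/

namespace Vale.Agent.P040

/-- A drawing with fewest multiple points and straight ends has no adjacent meetings. -/
theorem normalise : NormaliseSpec := by
  classical
  intro m n D
  have hex : ∃ k, ∃ D' : RDrawing m n, D'.crossings = k := ⟨_, D, rfl⟩
  obtain ⟨D₀, h₀⟩ := Nat.find_spec hex
  have hmin : ∀ E : RDrawing m n, D₀.crossings ≤ E.crossings := fun E =>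
    h₀ ▸ Nat.find_min' hex ⟨E, rfl⟩
  obtain ⟨D', θ, hle, hrad⟩ := D₀.exists_radial
  refine ⟨D', θ, hle.trans (hmin D), fun a i j hij s hs t ht h => ?_, hrad⟩
  obtain ⟨E, hE⟩ := D'.exists_fewer_of_adjacent hij hs ht h
  exact absurd (lt_of_lt_of_le hE hle) (hmin E).not_gt

end Vale.Agent.P040
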