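import Vale.Agent.P040.Defs

/-!
The statements that the modules of the bound `cr(K_{m,n}) ≥ 0.92 · m² n² / 16 · (1 - o(1))` prove.
-/

open Set Finset

namespace Vale.Agent.P040

/-- Every drawing can be made normal without gaining a multiple point. -/
def NormaliseSpec : Prop :=
  ∀ {m n : ℕ} (D : RDrawing m n), ∃ D' : RDrawing m n, ∃ θ : Fin m → Fin n → ℝ,
    D'.crossings ≤ D.crossings ∧ D'.NoAdjacent ∧ D'.Radial θ

/-- The crossing bound from two rotations, for angles. -/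
def PairAngleSpec : Prop :=
  ∀ {m n : ℕ} (D : RDrawing m n) (θ : Fin m → Fin n → ℝ), D.NoAdjacent → D.Radial θ →
    ∀ a a' : Fin m, a ≠ a' → ∃ X : Fin n → ℝ,
      (∀ i j, ∃ z : ℤ, X j - X i = (θ a' i - θ a' j) + z) ∧
      ((∑ i, ∑ j, |((⌊X j - X i⌋ - ⌊θ a j - θ a i⌋ : ℤ) : ℝ)|) / 2) ≤ ((D.pairPts a a').ncard : ℝ)

/-- The crossing bound from two rotations, for ranks. -/
def PairBoundSpec : Prop :=
  ∀ {m n : ℕ} (D : RDrawing m n) (θ : Fin m → Fin n → ℝ), D.NoAdjacent → D.Radial θ →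
    ∃ rk : Fin m → Fin n → Fin n, (∀ a, Function.Bijective (rk a)) ∧
      ∀ a a' : Fin m, a ≠ a' → ∃ w : Fin n → ℤ,
        windCost (fun i => (rk a i : ℕ)) (fun i => (rk a' i : ℕ)) w ≤ ((D.pairPts a a').ncard : ℝ)

/-- The minorant of the winding cost: a constant plus a positive semidefinite kernel. -/
def MinorantSpec (c : ℝ) : Prop :=
  ∃ F : ℝ → ℝ, ∃ E : ℝ, (∀ t, |F t| ≤ 1) ∧
    ∀ (n : ℕ) (x y : Fin n → Fin n), Function.Bijective x → Function.Bijective y →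
      ∀ w : Fin n → ℤ,
        c / 8 * (n : ℝ) ^ 2 +
          (∑ i, ∑ j, F (Int.fract (((x j : ℕ) : ℝ) / n - ((x i : ℕ) : ℝ) / n)) *
            F (Int.fract (((y j : ℕ) : ℝ) / n - ((y i : ℕ) : ℝ) / n))) - E * n
        ≤ windCost (fun i => (x i : ℕ)) (fun i => (y i : ℕ)) w

/-- The asymptotic bound for relaxed drawings. -/
def BoundSpec (c : ℝ) : Prop :=
  ∀ η : ℝ, 0 < η → ∃ N : ℕ, ∀ m n : ℕ, N ≤ m → N ≤ n → ∀ D : RDrawing m n,
    (c - η) * ((m : ℝ) ^ 2 * (n : ℝ) ^ 2 / 16) ≤ (D.crossings : ℝ)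

end Vale.Agent.P040
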