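import Vale.Agent.P040.Spec
import Vale.Agent.P040.PairAngle.Lifts

/-!
# P040: the crossing bound from two rotations (`PairAngleSpec`)

Whenever the order of two lifts (one shifted by `2 π i q`) at the bottom differs from the one at the
top, the lifts meet; the meeting gives a point common to an edge at `A a` and one at `A a'`, and
different triples `(i, j, q)` give different points.
-/

open Set Filter Complex
open scoped Real Topology

noncomputable section

namespace Vale.Agent.P040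

namespace PairAngle

/-- Two functions with the limits of lifts: shifted curves with exchanged order meet. -/
theorem meet {F G : ℝ → ℂ} (hF : ContinuousOn F (Ioo 0 1)) (hG : ContinuousOn G (Ioo 0 1))
    (F0 : Tendsto (fun u => (F u).re) (𝓝[>] 0) atBot) (F1 : Tendsto (fun u => (F u).re) (𝓝[<] 1) atTop)
    (G0 : Tendsto (fun u => (G u).re) (𝓝[>] 0) atBot) (G1 : Tendsto (fun u => (G u).re) (𝓝[<] 1) atTop)
    {x x' y y' : ℝ} (Fx : Tendsto (fun u => (F u).im / (2 * π)) (𝓝[>] 0) (𝓝 x))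
    (Fy : Tendsto (fun u => (F u).im / (2 * π)) (𝓝[<] 1) (𝓝 y))
    (Gx : Tendsto (fun u => (G u).im / (2 * π)) (𝓝[>] 0) (𝓝 x'))
    (Gy : Tendsto (fun u => (G u).im / (2 * π)) (𝓝[<] 1) (𝓝 y'))
    (h : (x' < x ∧ y < y') ∨ (x < x' ∧ y' < y)) :
    ∃ s ∈ Ioo (0 : ℝ) 1, ∃ t ∈ Ioo (0 : ℝ) 1, F s = G t := by
  have h2π : (0 : ℝ) < 2 * π := by positivity
  -- thresholds separating the two pairs of limits
  set μ := (x + x') / 2 with hμ
  set ν := (y + y') / 2 with hν
  obtain ⟨a, ha, hA⟩ : ∃ a ∈ Ioo (0 : ℝ) (1 / 2), ∀ u ∈ Ioo 0 a, (F u).re < 0 ∧ (G u).re < 0 ∧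
      (x' < x → (G u).im / (2 * π) < μ ∧ μ < (F u).im / (2 * π)) ∧
      (x < x' → (F u).im / (2 * π) < μ ∧ μ < (G u).im / (2 * π)) := by
    have ev : ∀ᶠ u in 𝓝[>] (0 : ℝ), (F u).re < 0 ∧ (G u).re < 0 ∧
        (x' < x → (G u).im / (2 * π) < μ ∧ μ < (F u).im / (2 * π)) ∧
        (x < x' → (F u).im / (2 * π) < μ ∧ μ < (G u).im / (2 * π)) := by
      refine (F0.eventually_lt_atBot 0).and ((G0.eventually_lt_atBot 0).and ?_)
      refine Eventually.and ?_ ?_
      · by_cases hx : x' < x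
        · filter_upwards [Gx.eventually_lt_const (show x' < μ by linarith),
            Fx.eventually_const_lt (show μ < x by linarith)] with u h1 h2 _
          exact ⟨h1, h2⟩
        · exact Eventually.of_forall fun u h' => absurd h' hx
      · by_cases hx : x < x'
        · filter_upwards [Fx.eventually_lt_const (show x < μ by linarith),
            Gx.eventually_const_lt (show μ < x' by linarith)] with u h1 h2 _
          exact ⟨h1, h2⟩
        · exact Eventually.of_forall fun u h' => absurd h' hx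
    obtain ⟨a, ha, hsub⟩ := mem_nhdsGT_iff_exists_Ioo_subset.1 ev
    refine ⟨min a (1 / 4), ⟨lt_min ha (by norm_num), (min_le_right _ _).trans_lt (by norm_num)⟩,
      fun u hu => hsub ⟨hu.1, hu.2.trans_le (min_le_left _ _)⟩⟩
  obtain ⟨b, hb, hB⟩ : ∃ b ∈ Ioo (1 / 2 : ℝ) 1, ∀ u ∈ Ioo b 1, 0 < (F u).re ∧ 0 < (G u).re ∧
      (y < y' → (F u).im / (2 * π) < ν ∧ ν < (G u).im / (2 * π)) ∧
      (y' < y → (G u).im / (2 * π) < ν ∧ ν < (F u).im / (2 * π)) := by
    have ev : ∀ᶠ u in 𝓝[<] (1 : ℝ), 0 < (F u).re ∧ 0 < (G u).re ∧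
        (y < y' → (F u).im / (2 * π) < ν ∧ ν < (G u).im / (2 * π)) ∧
        (y' < y → (G u).im / (2 * π) < ν ∧ ν < (F u).im / (2 * π)) := by
      refine (F1.eventually_gt_atTop 0).and ((G1.eventually_gt_atTop 0).and ?_)
      refine Eventually.and ?_ ?_
      · by_cases hy : y < y'
        · filter_upwards [Fy.eventually_lt_const (show y < ν by linarith),
            Gy.eventually_const_lt (show ν < y' by linarith)] with u h1 h2 _
          exact ⟨h1, h2⟩
        · exact Eventually.of_forall fun u h' => absurd h' hy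
      · by_cases hy : y' < y
        · filter_upwards [Gy.eventually_lt_const (show y' < ν by linarith),
            Fy.eventually_const_lt (show ν < y by linarith)] with u h1 h2 _
          exact ⟨h1, h2⟩
        · exact Eventually.of_forall fun u h' => absurd h' hy
    obtain ⟨b, hb, hsub⟩ := mem_nhdsLT_iff_exists_Ioo_subset.1 ev
    refine ⟨max b (3 / 4), ⟨lt_max_of_lt_right (by norm_num), max_lt hb (by norm_num)⟩,
      fun u hu => hsub ⟨(le_max_left _ _).trans_lt hu.1, hu.2⟩⟩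
  have hab : a ≤ b := by linarith [ha.2, hb.1]
  have hcut : ∀ {f : ℝ → ℂ}, ContinuousOn f (Ioo 0 1) →
      Tendsto (fun u => (f u).re) (𝓝[>] 0) atBot → Tendsto (fun u => (f u).re) (𝓝[<] 1) atTop →
      (∀ u ∈ Ioo (0 : ℝ) a, (f u).re < 0) → (∀ u ∈ Ioo b 1, 0 < (f u).re) →
      ∀ R : ℝ, (∀ u ∈ Icc a b, |(f u).re| < R) →
      ∃ t₀ t₁, t₀ ∈ Ioo 0 a ∧ t₁ ∈ Ioo b 1 ∧ (f t₀).re = -R ∧ (f t₁).re = R ∧
        ∀ t ∈ Icc t₀ t₁, -R ≤ (f t).re ∧ (f t).re ≤ R := by
    intro f hf f0 f1 hneg hpos R hR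
    have hR0 : 0 < R := (abs_nonneg _).trans_lt (hR a (left_mem_Icc.2 hab))
    obtain ⟨p, hp1, hp2⟩ :=
      ((f0.eventually_le_atBot (-R)).and (Ioo_mem_nhdsGT ha.1)).exists
    obtain ⟨q, hq1, hq2⟩ :=
      ((f1.eventually_ge_atTop R).and (Ioo_mem_nhdsLT hb.2)).exists
    have hpq : p ≤ q := by linarith [hp2.2, hq2.1]
    have hsub : Icc p q ⊆ Ioo (0 : ℝ) 1 := fun u hu => ⟨hp2.1.trans_le hu.1, hu.2.trans_lt hq2.2⟩
    obtain ⟨t₀, t₁, h1, h2, h3, e0, e1, hmid⟩ :=
      exists_cut hpq (continuous_re.comp_continuousOn (hf.mono hsub)) hR0 hp1 hq1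
    refine ⟨t₀, t₁, ⟨hp2.1.trans_le h1, ?_⟩, ⟨?_, h3.trans_lt hq2.2⟩, e0, e1, hmid⟩
    · by_contra h
      push Not at h
      rcases le_or_gt t₀ b with h' | h'
      · have e : (f t₀).re = -R := e0
        have := hR t₀ ⟨h, h'⟩
        rw [e, abs_neg, abs_of_pos hR0] at this
        exact lt_irrefl _ this
      · have e : (f t₀).re = -R := e0
        have := hpos t₀ ⟨h', (h2.trans h3).trans_lt hq2.2⟩
        linarith
    · by_contra h
      push Not at h
      rcases le_or_gt a t₁ with h' | h'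
      · have e : (f t₁).re = R := e1
        have := hR t₁ ⟨h', h⟩
        rw [e, abs_of_pos hR0] at this
        exact lt_irrefl _ this
      · have e : (f t₁).re = R := e1
        have := hneg t₁ ⟨hp2.1.trans_le (h1.trans h2), h'⟩
        linarith
  have hIcc : Icc a b ⊆ Ioo (0 : ℝ) 1 := fun u hu => ⟨ha.1.trans_le hu.1, hu.2.trans_lt hb.2⟩
  obtain ⟨M₁, hM₁⟩ := isCompact_Icc.exists_bound_of_continuousOn
    (continuous_re.comp_continuousOn (hF.mono hIcc))
  obtain ⟨M₂, hM₂⟩ := isCompact_Icc.exists_bound_of_continuousOn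
    (continuous_re.comp_continuousOn (hG.mono hIcc))
  obtain ⟨s₀, s₁, hs₀, hs₁, f₀, f₁, bF⟩ := hcut hF F0 F1 (fun u hu => (hA u hu).1)
    (fun u hu => (hB u hu).1) (max M₁ M₂ + 1) fun u hu => lt_of_le_of_lt
      ((hM₁ u hu).trans (le_max_left _ _)) (lt_add_one _)
  obtain ⟨t₀, t₁, ht₀, ht₁, g₀, g₁, bG⟩ := hcut hG G0 G1 (fun u hu => (hA u hu).2.1)
    (fun u hu => (hB u hu).2.1) (max M₁ M₂ + 1) fun u hu => lt_of_le_of_lt
      ((hM₂ u hu).trans (le_max_right _ _)) (lt_add_one _)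
  have hs : s₀ ≤ s₁ := by linarith [hs₀.2, hs₁.1]
  have ht : t₀ ≤ t₁ := by linarith [ht₀.2, ht₁.1]
  obtain ⟨s, hsm, t, htm, e⟩ := lifts_meet hs ht
    (hF.mono fun u hu => ⟨hs₀.1.trans_le hu.1, hu.2.trans_lt hs₁.2⟩)
    (hG.mono fun u hu => ⟨ht₀.1.trans_le hu.1, hu.2.trans_lt ht₁.2⟩) f₀ f₁ g₀ g₁ bF bG
    (by
      have key : ∀ {p q c : ℝ}, p / (2 * π) < c → c < q / (2 * π) → p < q := fun h1 h2 =>
        (div_lt_div_iff_of_pos_right h2π).1 (h1.trans h2)
      rcases h with ⟨hx, hy⟩ | ⟨hx, hy⟩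
      · obtain ⟨-, h2⟩ := (hA s₀ hs₀).2.2.1 hx
        obtain ⟨h1, -⟩ := (hA t₀ ht₀).2.2.1 hx
        obtain ⟨h3, -⟩ := (hB s₁ hs₁).2.2.1 hy
        obtain ⟨-, h4⟩ := (hB t₁ ht₁).2.2.1 hy
        exact Or.inl ⟨key h1 h2, key h3 h4⟩
      · obtain ⟨h1, -⟩ := (hA s₀ hs₀).2.2.2 hx
        obtain ⟨-, h2⟩ := (hA t₀ ht₀).2.2.2 hx
        obtain ⟨-, h4⟩ := (hB s₁ hs₁).2.2.2 hy
        obtain ⟨h3, -⟩ := (hB t₁ ht₁).2.2.2 hy
        exact Or.inr ⟨key h1 h2, key h3 h4⟩)
  exact ⟨s, ⟨hs₀.1.trans_le hsm.1, hsm.2.trans_lt hs₁.2⟩, t,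
    ⟨ht₀.1.trans_le htm.1, htm.2.trans_lt ht₁.2⟩, e⟩

/-- A real in `(-1, 1)` other than `0`, shifted by an integer, is not an integer. -/
theorem ne_int {r : ℝ} (hr : |r| < 1) (h0 : r ≠ 0) (z q : ℤ) : r + z ≠ q := fun e => by
  have e' : r = ((q - z : ℤ) : ℝ) := by push_cast; linarith
  rw [e'] at hr h0
  have h1 : |q - z| < 1 := by exact_mod_cast hr
  exact h0 (by exact_mod_cast Int.abs_lt_one_iff.1 h1)

theorem floor_neg_of_ne {r : ℝ} (h : ∀ q : ℤ, r ≠ q) : ⌊-r⌋ = -⌊r⌋ - 1 := by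
  rw [Int.floor_eq_iff]
  push_cast
  have h1 := Int.floor_le r
  have h2 := Int.lt_floor_add_one r
  have h3 : (⌊r⌋ : ℝ) < r := lt_of_le_of_ne h1 fun e => h _ e.symm
  constructor <;> linarith

variable {m n : ℕ} (D : RDrawing m n) (a a' : Fin m)

/-- The edge and time of a point of `path`. -/
def incOf (i : Fin n) (u : ℝ) : (Fin m × Fin n) × ℝ :=
  if u ≤ 1 / 2 then ((a, i), 2 * u) else ((a', i), 2 - 2 * u)

theorem incOf_mem {i : Fin n} {u : ℝ} (hu : u ∈ Ioo (0 : ℝ) 1) (h : u ≠ 1 / 2) :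
    incOf a a' i u ∈ incid D.arc (path D a a' i u) := by
  unfold incOf path
  split_ifs with h'
  · exact ⟨⟨by linarith [hu.1], by linarith [lt_of_le_of_ne h' h]⟩, rfl⟩
  · exact ⟨⟨by linarith [hu.2], by linarith [not_le.1 h']⟩, rfl⟩

theorem incOf_inj (ha : a ≠ a') {i i' : Fin n} {u u' : ℝ}
    (h : incOf a a' i u = incOf a a' i' u') : i = i' ∧ u = u' := by
  unfold incOf at h
  split_ifs at h <;> simp only [Prod.mk.injEq] at h
  · exact ⟨h.1.2, by linarith [h.2]⟩
  · exact absurd h.1.1 ha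
  · exact absurd h.1.1.symm ha
  · exact ⟨h.1.2, by linarith [h.2]⟩

/-- **A meeting of two lifts is a point of `pairPts`.** -/
theorem common (hA : D.NoAdjacent) {i j : Fin n} (hij : i ≠ j) {s t : ℝ} (hs : s ∈ Ioo (0 : ℝ) 1)
    (ht : t ∈ Ioo (0 : ℝ) 1) (e : path D a a' i s = path D a a' j t) :
    s ≠ 1 / 2 ∧ t ≠ 1 / 2 ∧ path D a a' i s ∈ D.pairPts a a' := by
  have inner : ∀ (k : Fin n) (u : ℝ), u ∈ Ioo (0 : ℝ) 1 → u ≠ 1 / 2 → ∀ l,
      path D a a' k u ≠ D.B l := by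
    intro k u hu hne l e'
    obtain ⟨hI, hp⟩ := incOf_mem D a a' (i := k) hu hne
    exact (D.avoid _ _ _ hI).2 ⟨l, by rw [hp, e']⟩
  have hsne : s ≠ 1 / 2 := fun h => by
    rw [h, path_half] at e
    by_cases h' : t = 1 / 2
    · rw [h', path_half] at e
      exact hij (Sum.inr_injective (D.inj (a₁ := Sum.inr i) (a₂ := Sum.inr j) e))
    · exact inner j t ht h' i e.symm
  have htne : t ≠ 1 / 2 := fun h => by
    rw [h, path_half] at e
    exact inner i s hs hsne j e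
  refine ⟨hsne, htne, ?_⟩
  obtain ⟨⟨hI, hp⟩, ⟨hJ, hq⟩⟩ :=
    incOf_mem D a a' (i := i) hs hsne, incOf_mem D a a' (i := j) ht htne
  rw [← e] at hq
  unfold incOf at hI hp hJ hq
  split_ifs at hI hp hJ hq
  · exact absurd (hp.trans hq.symm) (hA a i j hij _ hI _ hJ)
  · exact ⟨i, j, hij, ⟨_, hI, hp⟩, _, hJ, hq⟩
  · exact ⟨j, i, hij.symm, ⟨_, hJ, hq⟩, _, hI, hp⟩
  · exact absurd (hp.trans hq.symm) (hA a' i j hij _ hI _ hJ)

theorem pairPts_finite (ha : a ≠ a') : (D.pairPts a a').Finite := by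
  refine D.fin.subset ?_
  rintro p ⟨i, j, -, ⟨s, hs, hsp⟩, t, ht, htp⟩ hsub
  have := hsub (x := ((a, i), s)) ⟨hs, hsp⟩ (y := ((a', j), t)) ⟨ht, htp⟩
  exact ha (congrArg (fun q => q.1.1) this)

theorem mobius_inj {A A' p q : ℂ} (h : A ≠ A') (hp : p ≠ A') (hq : q ≠ A')
    (e : (p - A) / (p - A') = (q - A) / (q - A')) : p = q := by
  rw [div_eq_div_iff (sub_ne_zero.2 hp) (sub_ne_zero.2 hq)] at e
  have h2 : (p - q) * (A - A') = 0 := by linear_combination e
  exact sub_eq_zero.1 ((mul_eq_zero.1 h2).resolve_right (sub_ne_zero.2 h))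

theorem sum_symm {n : ℕ} (d : Fin n → Fin n → ℝ) (h : ∀ i j, d i j = d j i) (h0 : ∀ i, d i i = 0) :
    (∑ i, ∑ j, d i j) / 2 = ∑ i, ∑ j, if i < j then d i j else 0 := by
  have e : ∀ i j, d i j = (if i < j then d i j else 0) + (if j < i then d j i else 0) := by
    intro i j
    rcases lt_trichotomy i j with h' | h' | h'
    · simp [h', h'.asymm]
    · subst h'; simp [h0]
    · simp [h', h'.asymm, h i j]
  rw [Finset.sum_congr rfl fun i _ => Finset.sum_congr rfl fun j _ => e i j]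
  simp only [Finset.sum_add_distrib]
  rw [Finset.sum_comm (f := fun i j => if j < i then d j i else 0)]
  ring

end PairAngle

open PairAngle in
/-- **PairAngleSpec.** -/
theorem pairAngle : PairAngleSpec := by
  intro m n D θ hA hθ a a' ha
  choose L z hLc hLe hL0 hL1 hx hy using fun i => exists_lift D a a' hθ ha i
  refine ⟨fun i => -θ a' i + z i, fun i j => ⟨z j - z i, by push_cast; ring⟩, ?_⟩
  set X : Fin n → ℝ := fun i => -θ a' i + z i with hX
  set c := arg (D.A a - D.A a') / (2 * π) with hc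
  set c' := arg (D.A a' - D.A a) / (2 * π) with hc'
  set dX : Fin n → Fin n → ℤ := fun i j => ⌊X j - X i⌋ with hdX
  set dx : Fin n → Fin n → ℤ := fun i j => ⌊θ a j - θ a i⌋ with hdx
  have small : ∀ b i j, |θ b j - θ b i| < 1 := fun b i j => by
    rw [abs_lt]; constructor <;> linarith [(hθ.1 b i).1, (hθ.1 b i).2, (hθ.1 b j).1, (hθ.1 b j).2]
  have nx : ∀ {i j : Fin n}, i ≠ j → ∀ q : ℤ, θ a j - θ a i ≠ q := fun {i j} h q => by
    simpa using ne_int (small a i j) (sub_ne_zero.2 fun e => h (hθ.2.1 a e).symm) 0 q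
  have nX : ∀ {i j : Fin n}, i ≠ j → ∀ q : ℤ, X j - X i ≠ q := fun {i j} h q => by
    have := ne_int (small a' j i) (sub_ne_zero.2 fun e => h (hθ.2.1 a' e)) (z j - z i) q
    intro e
    apply this
    simp only [hX] at e
    push_cast
    linarith
  -- the meetings
  have hmeet : ∀ (i j : Fin n) (q : ℤ), i ≠ j → min (dX i j) (dx i j) < q →
      q ≤ max (dX i j) (dx i j) → ∃ s t, s ∈ Ioo (0 : ℝ) 1 ∧ t ∈ Ioo (0 : ℝ) 1 ∧
        L i s = L j t - (q : ℂ) * (2 * π * I) := by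
    intro i j q hij h1 h2
    set G : ℝ → ℂ := fun u => L j u - (q : ℂ) * (2 * π * I) with hG
    have eim : ∀ u, (G u).im / (2 * π) = (L j u).im / (2 * π) - q := fun u => by
      simp [hG]
      field_simp
    have ere : ∀ u, (G u).re = (L j u).re := fun u => by simp [hG]
    obtain ⟨s, hs, t, ht, e⟩ := meet (F := L i) (G := G) (hLc i) ((hLc j).sub continuousOn_const)
      (hL0 i) (hL1 i) (by simpa only [ere] using hL0 j) (by simpa only [ere] using hL1 j)
      (hx i) (hy i) (by simpa only [eim] using (hx j).sub_const (q : ℝ))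
      (by simpa only [eim] using (hy j).sub_const (q : ℝ)) (by
        rcases le_total (dX i j) (dx i j) with hle | hle
        · rw [min_eq_left hle] at h1
          rw [max_eq_right hle] at h2
          have a1 : X j - X i < q := Int.floor_lt.1 h1
          have a2 : (q : ℝ) < θ a j - θ a i := lt_of_le_of_ne (Int.le_floor.1 h2) (nx hij q).symm
          simp only [hX] at a1
          exact Or.inr ⟨by linarith, by linarith⟩
        · rw [min_eq_right hle] at h1
          rw [max_eq_left hle] at h2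
          have a1 : θ a j - θ a i < q := Int.floor_lt.1 h1
          have a2 : (q : ℝ) < X j - X i := lt_of_le_of_ne (Int.le_floor.1 h2) (nX hij q).symm
          simp only [hX] at a2
          exact Or.inl ⟨by linarith, by linarith⟩)
    exact ⟨s, t, hs, ht, e⟩
  -- the triples
  set T : Finset (Σ _ : Fin n × Fin n, ℤ) := (Finset.univ.filter fun p : Fin n × Fin n =>
    p.1 < p.2).sigma fun p => Finset.Ioc (min (dX p.1 p.2) (dx p.1 p.2)) (max (dX p.1 p.2) (dx p.1 p.2))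
    with hT
  have hmem : ∀ τ ∈ T, τ.1.1 < τ.1.2 ∧ min (dX τ.1.1 τ.1.2) (dx τ.1.1 τ.1.2) < τ.2 ∧
      τ.2 ≤ max (dX τ.1.1 τ.1.2) (dx τ.1.1 τ.1.2) := fun τ hτ => by
    simpa [hT] using hτ
  have hsol : ∀ τ : {τ // τ ∈ T}, ∃ s t, s ∈ Ioo (0 : ℝ) 1 ∧ t ∈ Ioo (0 : ℝ) 1 ∧
      L τ.1.1.1 s = L τ.1.1.2 t - (τ.1.2 : ℂ) * (2 * π * I) := fun τ =>
    hmeet _ _ _ (hmem τ.1 τ.2).1.ne (hmem τ.1 τ.2).2.1 (hmem τ.1 τ.2).2.2
  choose S U hS hU hSU using hsol
  have hpath : ∀ τ : {τ // τ ∈ T}, path D a a' τ.1.1.1 (S τ) = path D a a' τ.1.1.2 (U τ) :=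
    fun τ => by
    have e := congrArg exp (hSU τ)
    rw [Complex.exp_sub, exp_turns, div_one, hLe _ _ (hS τ), hLe _ _ (hU τ)] at e
    exact mobius_inj (fun e' => ha (Sum.inl_injective (D.inj (a₁ := Sum.inl a) (a₂ := Sum.inl a') e')))
      (path_avoid D a a' _ (hS τ) a') (path_avoid D a a' _ (hU τ) a') e
  have hcard : T.card ≤ (D.pairPts a a').ncard := by
    have h1 := Set.ncard_le_ncard_of_injOn (s := (Set.univ : Set {τ // τ ∈ T}))
      (fun τ => path D a a' τ.1.1.1 (S τ))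
      (fun τ _ => (common D a a' hA (hmem τ.1 τ.2).1.ne (hS τ) (hU τ) (hpath τ)).2.2)
      (fun τ _ τ' _ e => by
        obtain ⟨s1, t1, -⟩ := common D a a' hA (hmem τ.1 τ.2).1.ne (hS τ) (hU τ) (hpath τ)
        obtain ⟨s2, t2, -⟩ := common D a a' hA (hmem τ'.1 τ'.2).1.ne (hS τ') (hU τ') (hpath τ')
        have ij := (hmem τ.1 τ.2).1
        have ij' := (hmem τ'.1 τ'.2).1
        have m1 := incOf_mem D a a' (i := τ.1.1.1) (hS τ) s1
        have m2 : incOf a a' τ.1.1.2 (U τ) ∈ incid D.arc (path D a a' τ.1.1.1 (S τ)) :=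
          hpath τ ▸ incOf_mem D a a' (hU τ) t1
        have m3 : incOf a a' τ'.1.1.1 (S τ') ∈ incid D.arc (path D a a' τ.1.1.1 (S τ)) := by
          rw [show path D a a' τ.1.1.1 (S τ) = path D a a' τ'.1.1.1 (S τ') from e]
          exact incOf_mem D a a' (hS τ') s2
        have m4 : incOf a a' τ'.1.1.2 (U τ') ∈ incid D.arc (path D a a' τ.1.1.1 (S τ)) := by
          rw [show path D a a' τ.1.1.1 (S τ) = path D a a' τ'.1.1.1 (S τ') from e, hpath τ']
          exact incOf_mem D a a' (hU τ') t2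
        have pick : ∀ {k : Fin n} {u : ℝ},
            incOf a a' k u ∈ incid D.arc (path D a a' τ.1.1.1 (S τ)) →
            (k = τ.1.1.1 ∧ u = S τ) ∨ (k = τ.1.1.2 ∧ u = U τ) := fun {k u} hk => by
          rcases D.two _ _ m1 _ m2 _ hk with h | h | h
          · exact absurd (incOf_inj a a' ha h).1 ij.ne
          · exact Or.inl (incOf_inj a a' ha h.symm)
          · exact Or.inr (incOf_inj a a' ha h.symm)
        obtain ⟨hi, hs'⟩ : τ'.1.1.1 = τ.1.1.1 ∧ S τ' = S τ := by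
          rcases pick m3 with h | h
          · exact h
          · rcases pick m4 with h' | h'
            · rw [h.1, h'.1] at ij'; exact absurd ij' ij.asymm
            · rw [h.1, h'.1] at ij'; exact absurd ij' (lt_irrefl _)
        obtain ⟨hj, ht'⟩ : τ'.1.1.2 = τ.1.1.2 ∧ U τ' = U τ := by
          rcases pick m4 with h | h
          · rw [hi, h.1] at ij'; exact absurd ij' (lt_irrefl _)
          · exact h
        have eq' := hSU τ'
        rw [hi, hj, hs', ht', hSU τ] at eq'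
        have hq : (τ.1.2 : ℂ) = τ'.1.2 := by
          have h2 : ((τ.1.2 : ℂ) - τ'.1.2) * (2 * π * I) = 0 := by linear_combination -eq'
          exact sub_eq_zero.1 ((mul_eq_zero.1 h2).resolve_right (by simp [Real.pi_ne_zero]))
        have hq' : τ.1.2 = τ'.1.2 := by exact_mod_cast hq
        have hp : τ.1.1 = τ'.1.1 := Prod.ext hi.symm hj.symm
        apply Subtype.ext
        obtain ⟨⟨p, q⟩, _⟩ := τ
        obtain ⟨⟨p', q'⟩, _⟩ := τ'
        simp only at hp hq' ⊢
        subst hp; subst hq'; rfl)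
      (pairPts_finite D a a' ha)
    rwa [Set.ncard_univ, Nat.card_eq_fintype_card, Fintype.card_coe] at h1
  refine le_trans (le_of_eq ?_) ((Nat.cast_le (α := ℝ)).2 hcard)
  rw [sum_symm]
  · rw [hT, Finset.card_sigma, Nat.cast_sum, Finset.sum_filter, ← Finset.sum_product']
    refine Finset.sum_congr rfl fun p _ => ?_
    split_ifs with h
    · rw [Int.card_Ioc, max_sub_min_eq_abs']
      have e : ((|dX p.1 p.2 - dx p.1 p.2|.toNat : ℕ) : ℝ) = ((|dX p.1 p.2 - dx p.1 p.2| : ℤ) : ℝ) := by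
        rw [← Int.cast_natCast, Int.toNat_of_nonneg (abs_nonneg _)]
      rw [e, Int.cast_abs]
    · rfl
  · intro i j
    by_cases h : i = j
    · rw [h]
    · rw [show θ a j - θ a i = -(θ a i - θ a j) by ring,
        show X j - X i = -(X i - X j) by ring, floor_neg_of_ne (nx (Ne.symm h)),
        floor_neg_of_ne (nX (Ne.symm h)), ← abs_neg]
      push_cast
      ring_nf
  · intro i
    simp

end Vale.Agent.P040
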