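import Vale.Agent.P040.Spec
import Mathlib.Tactic.Linarith
import Mathlib.Tactic.Positivity
import Mathlib.Tactic.Ring

/-!
From the bound for relaxed drawings to drawings of `K_{m,n}` in the usual sense.
-/

open Set

namespace Vale.Agent.P040

/-- The interior of an edge, as a set of points. -/
def inner {m n : ℕ} (γ : Fin m → Fin n → ℝ → ℂ) (e : Fin m × Fin n) : Set ℂ :=
  γ e.1 e.2 '' Ioo 0 1

lemma zarankiewicz_factor_le (r : ℕ) :
    (((r / 2) * ((r - 1) / 2) : ℕ) : ℝ) ≤ (r : ℝ) ^ 2 / 4 := by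
  have h1 : 2 * (r / 2) ≤ r := Nat.mul_div_le r 2
  have h2 : 2 * ((r - 1) / 2) ≤ r := (Nat.mul_div_le (r - 1) 2).trans (Nat.sub_le r 1)
  have h3 := Nat.mul_le_mul h1 h2
  have h4 : 4 * (((r / 2) * ((r - 1) / 2) : ℕ) : ℝ) ≤ (r : ℝ) * r := by
    exact_mod_cast le_of_eq_of_le (by ring) h3
  linarith [pow_two (r : ℝ)]

theorem plane_of_bound {c d : ℝ} (hd : 0 ≤ d) (hdc : d < c) (hB : BoundSpec c) :
    ∃ N : ℕ, ∀ m n : ℕ, N ≤ m → N ≤ n →
      ∀ (P : Fin m ⊕ Fin n → ℂ) (γ : Fin m → Fin n → ℝ → ℂ), Function.Injective P →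
        (∀ i j, ContinuousOn (γ i j) (Icc 0 1) ∧ InjOn (γ i j) (Icc 0 1) ∧
          γ i j 0 = P (Sum.inl i) ∧ γ i j 1 = P (Sum.inr j) ∧
          ∀ t ∈ Ioo (0:ℝ) 1, γ i j t ∉ range P) →
        {z | ∃ e e', e ≠ e' ∧ z ∈ inner γ e ∧ z ∈ inner γ e'}.Finite →
        (∀ z, {e | z ∈ inner γ e}.ncard ≤ 2) →
        d * (((m / 2) * ((m - 1) / 2) * ((n / 2) * ((n - 1) / 2)) : ℕ) : ℝ)
          ≤ ({z | ∃ e e', e ≠ e' ∧ z ∈ inner γ e ∧ z ∈ inner γ e'}.ncard : ℝ) := by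
  obtain ⟨N, hN⟩ := hB (c - d) (by linarith)
  refine ⟨N, fun m n hm hn P γ hP hγ hfin htwo => ?_⟩
  have key : ∀ p, ∀ q ∈ incid γ p, ∀ q' ∈ incid γ p, q.1 = q'.1 → q = q' := by
    intro p q hq q' hq' h
    refine Prod.ext h ((hγ q.1.1 q.1.2).2.1 (Ioo_subset_Icc_self hq.1)
      (Ioo_subset_Icc_self hq'.1) ?_)
    rw [hq.2, h, hq'.2]
  have hmult : multPts γ = {z | ∃ e e', e ≠ e' ∧ z ∈ inner γ e ∧ z ∈ inner γ e'} := by
    ext p
    simp only [multPts, Set.mem_setOf_eq, Set.Subsingleton, not_forall]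
    constructor
    · rintro ⟨q, hq, q', hq', hne⟩
      exact ⟨q.1, q'.1, fun h => hne (key p q hq q' hq' h), ⟨q.2, hq.1, hq.2⟩,
        ⟨q'.2, hq'.1, hq'.2⟩⟩
    · rintro ⟨e, e', hne, ⟨s, hs, hsp⟩, ⟨t, ht, htp⟩⟩
      exact ⟨(e, s), ⟨hs, hsp⟩, (e', t), ⟨ht, htp⟩, fun h => hne (congrArg Prod.fst h)⟩
  let D : RDrawing m n :=
    { A := fun i => P (Sum.inl i)
      B := fun j => P (Sum.inr j)
      arc := γ
      inj := by
        have : Sum.elim (fun i => P (Sum.inl i)) (fun j => P (Sum.inr j)) = P := by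
          funext x; cases x <;> rfl
        rw [this]; exact hP
      cont := fun i j => (hγ i j).1
      src := fun i j => (hγ i j).2.2.1
      tgt := fun i j => (hγ i j).2.2.2.1
      avoid := fun i j t ht => ⟨fun ⟨k, hk⟩ => (hγ i j).2.2.2.2 t ht ⟨Sum.inl k, hk⟩,
        fun ⟨k, hk⟩ => (hγ i j).2.2.2.2 t ht ⟨Sum.inr k, hk⟩⟩
      two := by
        intro p q₁ h₁ q₂ h₂ q₃ h₃
        by_contra hc
        simp only [not_or] at hc
        obtain ⟨h12, h13, h23⟩ := hc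
        have hmem : ∀ q ∈ incid γ p, q.1 ∈ {e | p ∈ inner γ e} := fun q hq =>
          ⟨q.2, hq.1, hq.2⟩
        have h3 : ({q₁.1, q₂.1, q₃.1} : Set (Fin m × Fin n)).ncard ≤ 2 := by
          refine (Set.ncard_le_ncard ?_ (Set.toFinite _)).trans (htwo p)
          rintro e (rfl | rfl | rfl)
          exacts [hmem _ h₁, hmem _ h₂, hmem _ h₃]
        rw [Set.ncard_eq_three.2 ⟨_, _, _, fun h => h12 (key p _ h₁ _ h₂ h),
          fun h => h13 (key p _ h₁ _ h₃ h), fun h => h23 (key p _ h₂ _ h₃ h), rfl⟩] at h3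
        omega
      fin := hmult ▸ hfin }
  have hb := hN m n hm hn D
  rw [sub_sub_cancel, RDrawing.crossings, show multPts D.arc = _ from hmult] at hb
  refine le_trans ?_ hb
  rw [Nat.cast_mul]
  calc d * ((((m / 2) * ((m - 1) / 2) : ℕ) : ℝ) * (((n / 2) * ((n - 1) / 2) : ℕ) : ℝ))
      ≤ d * (((m : ℝ) ^ 2 / 4) * ((n : ℝ) ^ 2 / 4)) := by
        refine mul_le_mul_of_nonneg_left ?_ hd
        exact mul_le_mul (zarankiewicz_factor_le m) (zarankiewicz_factor_le n) (Nat.cast_nonneg _)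
          (by positivity)
    _ = d * ((m : ℝ) ^ 2 * (n : ℝ) ^ 2 / 16) := by ring

end Vale.Agent.P040
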